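import Vale.Agent.P154.Uni5

namespace Vale.Agent.P154.Uni

/-- certificate data -/
def datQ1 : List Itv := [
  ⟨5000000,6000000,997106442,994509961,2900580,3899,995012492,994017982,[89,1000],
    [90,600],[15,2000]⟩,
  ⟨6000000,7200000,996528735,993414942,3480697,5612,994017982,992825884,[98,1000],
    [98,600],[18,2000]⟩,
  ⟨7200000,8640000,995697424,991909298,4316064,7909,992825884,991397254,[107,1000],
    [108,600],[22,2000]⟩,
  ⟨8640000,10368000,994839131,990342654,5179277,10985,991397254,989685615,[117,1000],
    [118,600],[26,2000]⟩,
  ⟨10368000,12441600,993810155,988494243,6215132,15024,989685615,987635552,[129,1000],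
    [129,600],[31,2000]⟩,
  ⟨12441600,14929920,992576786,986170114,7458159,22033,987635552,985181086,[141,1000],
    [142,600],[38,2000]⟩,
  ⟨14929920,17915904,991098762,983428797,8949791,31557,985181086,982243786,[154,1000],
    [156,600],[46,2000]⟩,
  ⟨17915904,21499084,989328036,980196676,10739749,44310,982243786,978730595,[169,1000],
    [171,600],[54,2000]⟩,
  ⟨21499084,25798900,987207337,976202352,12887698,65116,978730595,974531365,[186,1000],
    [187,600],[66,2000]⟩,
  ⟨25798900,30958680,984668490,971496173,15465238,93397,974531365,969516087,[203,1000],
    [206,600],[79,2000]⟩,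
  ⟨30958680,37150416,981630483,965953881,18558286,131322,969516087,963531844,[223,1000],
    [226,600],[95,2000]⟩,
  ⟨37150416,44580499,977997234,959195023,22269943,190229,963531844,956399536,[244,1000],
    [248,600],[114,2000]⟩,
  ⟨44580499,53496598,973655064,951245079,26723931,269678,956399536,947910491,[268,1000],
    [272,600],[137,2000]⟩,
  ⟨53496598,64195917,968469874,941626402,32068717,390128,947910491,937823134,[294,1000],
    [300,600],[166,2000]⟩,
  ⟨64195917,77035100,963478217,931764459,37241091,579859,937823134,925860039,[324,1000],
    [330,600],[201,2000]⟩,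
  ⟨77035100,92442120,956335351,918688684,44689309,815918,925860039,911705783,[356,1000],
    [363,600],[242,2000]⟩,
  ⟨92442120,110930544,947833709,903157943,53627171,1150103,911705783,895006288,[391,1000],
    [400,600],[291,2000]⟩,
  ⟨110930544,133116652,937731347,884673893,64352605,1631432,895006288,875370547,[430,1000],
    [442,600],[351,2000]⟩,
  ⟨133116652,159739982,925750404,862711672,77223126,2328056,875370547,852376010,[474,1000],
    [489,600],[424,2000]⟩,
  ⟨159739982,191687978,911574965,836725825,92667751,3331928,852376010,825579233,[524,1000],
    [543,600],[514,2000]⟩,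
  ⟨191687978,230025573,894850388,806115569,111201301,4771959,825579233,794533809,[580,1000],
    [600],[625,2000]⟩,
  ⟨230025573,276030687,875185046,770692690,133441560,6722235,794533809,758817871,[644,1000],
    [600],[759,2000]⟩,
  ⟨276030687,331236824,852155715,728868234,160129872,9620074,758817871,718073562,[717,1000],
    [600],[927,2000]⟩,
  ⟨331236824,397484188,825318250,679871285,192155847,13900967,718073562,672060400,[801,1000],
    [600],[1139,2000]⟩,
  ⟨397484188,476981025,794225562,624005382,230587016,19766159,672060400,620723237,[904,1000],
    [600],[1402,2000]⟩,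
  ⟨476981025,572377230,758455192,559628911,276704419,28303335,620723237,564272877,[1000],
    [600],[1736,2000]⟩,
  ⟨572377230,686852676,717648895,416328248,332045302,80676271,564272877,503273045,[1000],
    [600],[2000]⟩,
  ⟨686852676,824223211,671566178,344959164,398454363,98712724,503273045,438720968,[1000],
    [600],[2000]⟩,
  ⟨824223211,989067853,620152505,249269525,478145236,135417248,438720968,372100799,[1000],
    [600],[2000]⟩,
  ⟨989067853,1186881423,563620227,129907893,573774283,200738310,372100799,305381301,[1000],
    [600],[2000]⟩,
  ⟨1186881423,1424257707,502535946,55,688529139,294494406,305381301,240925351,[1000],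
    [600],[2000]⟩,
  ⟨1424257707,1555124290,496525329,54,700565407,347946075,240925351,211412386,[1000],
    [600],[2000]⟩]

theorem chkQ1 : chkAll 1024 none 0 60000000 datQ1 1555124290 = true := by
  decide +kernel

end Vale.Agent.P154.Uni
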