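import Vale.Agent.P154.Uni5

namespace Vale.Agent.P154.Uni

/-- certificate data -/
def datQ2 : List Itv := [
  ⟨5000000,6000000,997010134,994364693,2997267,3878,995012492,994017982,[89,1000],
    [90,600],[15,2000]⟩,
  ⟨6000000,7200000,996528735,993414942,3480697,5612,994017982,992825884,[98,1000],
    [99,600],[18,2000]⟩,
  ⟨7200000,8640000,995697424,991907285,4316064,7924,992825884,991397254,[107,1000],
    [108,600],[22,2000]⟩,
  ⟨8640000,10368000,994839131,990338261,5179277,11023,991397254,989685615,[117,1000],
    [119,600],[26,2000]⟩,
  ⟨10368000,12441600,993810155,988486439,6215132,15104,989685615,987635552,[128,1000],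
    [130,600],[31,2000]⟩,
  ⟨12441600,14929920,992576786,986157262,7458159,22193,987635552,985181086,[140,1000],
    [143,600],[38,2000]⟩,
  ⟨14929920,17915904,991098762,983408900,8949791,31854,985181086,982243786,[153,1000],
    [157,600],[46,2000]⟩,
  ⟨17915904,21499084,989328036,979995307,10739749,47918,982243786,978730595,[168,1000],
    [172,600],[56,2000]⟩,
  ⟨21499084,25798900,987207337,976158778,12887698,66053,978730595,974531365,[184,1000],
    [189,600],[66,2000]⟩,
  ⟨25798900,30958680,984668490,971433807,15465238,95006,974531365,969516087,[202,1000],
    [208,600],[80,2000]⟩,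
  ⟨30958680,37150416,981630483,965646288,18558286,140845,969516087,963531844,[221,1000],
    [228,600],[96,2000]⟩,
  ⟨37150416,44580499,977997234,959073076,22269943,194759,963531844,956399536,[242,1000],
    [251,600],[115,2000]⟩,
  ⟨44580499,53496598,973655064,950818216,26723931,288707,956399536,947910491,[266,1000],
    [276,600],[140,2000]⟩,
  ⟨53496598,64195917,968469874,941395267,32068717,402493,947910491,937823134,[291,1000],
    [304,600],[167,2000]⟩,
  ⟨64195917,77035100,962284049,929717045,38482460,592111,937823134,925860039,[319,1000],
    [335,600],[202,2000]⟩,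
  ⟨77035100,92442120,954913138,916016096,46178953,851469,925860039,911705783,[350,1000],
    [370,600],[244,2000]⟩,
  ⟨92442120,110930544,946142464,899962267,55414743,1202459,911705783,895006288,[384,1000],
    [409,600],[293,2000]⟩,
  ⟨110930544,133116652,935723820,880796921,66497692,1715289,895006288,875370547,[422,1000],
    [453,600],[354,2000]⟩,
  ⟨133116652,159739982,923372630,857601753,79797230,2516186,875370547,852376010,[465,1000],
    [502,600],[431,2000]⟩,
  ⟨159739982,191687978,908766006,830585723,95756676,3615163,852376010,825579233,[512,1000],
    [559,600],[522,2000]⟩,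
  ⟨191687978,230025573,891542440,798737645,114908011,5200415,825579233,794533809,[564,1000],
    [600],[634,2000]⟩,
  ⟨230025573,276030687,871304094,761372233,137889612,7478302,794533809,758817871,[623,1000],
    [600],[773,2000]⟩,
  ⟨276030687,331236824,847623012,717764961,165467535,10739783,758817871,718073562,[689,1000],
    [600],[944,2000]⟩,
  ⟨331236824,397484188,820052949,667174490,198561041,15395201,718073562,672060400,[764,1000],
    [600],[1156,2000]⟩,
  ⟨397484188,476981025,788148890,608314935,238273249,22247793,672060400,620723237,[849,1000],
    [600],[1422,2000]⟩,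
  ⟨476981025,572377230,751496625,540480315,285927899,32276832,620723237,564272877,[947,1000],
    [600],[1757,2000]⟩,
  ⟨572377230,686852676,717648895,437735664,332045302,68423153,564272877,503273045,[1000],
    [600],[2000]⟩,
  ⟨686852676,824223211,671566178,359293959,398454363,88866831,503273045,438720968,[1000],
    [600],[2000]⟩,
  ⟨824223211,989067853,620152505,254439014,478145236,131156435,438720968,372100799,[1000],
    [600],[2000]⟩,
  ⟨989067853,1186881423,563620227,136239509,573774283,194475912,372100799,305381301,[1000],
    [600],[2000]⟩,
  ⟨1186881423,1424257707,502535946,4298981,688529139,289392091,305381301,240925351,[1000],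
    [600],[2000]⟩,
  ⟨1424257707,1613575867,490092327,54,713609842,335955882,240925351,199427225,[1000],
    [600],[2000]⟩]

theorem chkQ2 : chkAll 1024 none 60000000 100000000 datQ2 1613575867 = true := by
  decide +kernel

end Vale.Agent.P154.Uni
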