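import Vale.Agent.P154.Uni5

namespace Vale.Agent.P154.Uni

/-- certificate data -/
def datQ3 : List Itv := [
  ⟨5000000,6000000,997010134,994420259,2997267,3600,995012492,994017982,[88,1000],
    [90,600],[15,2000]⟩,
  ⟨6000000,7200000,996413233,993323609,3596720,5080,994017982,992825884,[97,1000],
    [99,600],[18,2000]⟩,
  ⟨7200000,8640000,995697424,992028889,4316064,7048,992825884,991397254,[106,1000],
    [108,600],[21,2000]⟩,
  ⟨8640000,10368000,995005195,990531870,5012203,11581,991397254,989685615,[116,1000],
    [119,600],[27,2000]⟩,
  ⟨10368000,12441600,993810155,988457898,6215132,15400,989685615,987635552,[127,1000],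
    [130,600],[32,2000]⟩,
  ⟨12441600,14929920,992815383,986394865,7217573,23851,987635552,985181086,[139,1000],
    [143,600],[39,2000]⟩,
  ⟨14929920,17915904,991384660,983695852,8661088,34207,985181086,982243786,[153,1000],
    [157,600],[46,2000]⟩,
  ⟨17915904,21499084,989670511,980467278,10393305,49001,982243786,978730595,[167,1000],
    [173,600],[56,2000]⟩,
  ⟨21499084,25798900,987617440,976606894,12471966,70126,978730595,974531365,[183,1000],
    [190,600],[67,2000]⟩,
  ⟨25798900,30958680,985159371,971945341,14966359,101499,974531365,969516087,[200,1000],
    [209,600],[81,2000]⟩,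
  ⟨30958680,37150416,982217754,966488718,17959631,143032,969516087,963531844,[219,1000],
    [230,600],[97,2000]⟩,
  ⟨37150416,44580499,978699393,959837810,21551558,206903,963531844,956399536,[240,1000],
    [253,600],[117,2000]⟩,
  ⟨44580499,53496598,974493978,951884030,25861869,299336,956399536,947910491,[263,1000],
    [278,600],[141,2000]⟩,
  ⟨53496598,64195917,969471302,942538313,31034242,424633,947910491,937823134,[288,1000],
    [307,600],[169,2000]⟩,
  ⟨64195917,77035100,963478217,930938943,37241091,632854,937823134,925860039,[316,1000],
    [338,600],[205,2000]⟩,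
  ⟨77035100,92442120,956335351,917327988,44689309,920739,925860039,911705783,[347,1000],
    [373,600],[248,2000]⟩,
  ⟨92442120,110930544,947833709,901388431,53627171,1313680,911705783,895006288,[380,1000],
    [413,600],[299,2000]⟩,
  ⟨110930544,133116652,937731347,882754628,64352605,1844338,895006288,875370547,[417,1000],
    [458,600],[360,2000]⟩,
  ⟨133116652,159739982,925750404,860096347,77223126,2676199,875370547,852376010,[458,1000],
    [508,600],[436,2000]⟩,
  ⟨159739982,191687978,911574965,832684965,92667751,3977415,852376010,825579233,[503,1000],
    [564,600],[532,2000]⟩,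
  ⟨191687978,230025573,894850388,800814929,111201301,5788028,825579233,794533809,[553,1000],
    [600],[647,2000]⟩,
  ⟨230025573,276030687,875185046,762660833,133441560,8569767,794533809,758817871,[609,1000],
    [600],[790,2000]⟩,
  ⟨276030687,331236824,852155715,718609131,160129872,12451902,758817871,718073562,[671,1000],
    [600],[965,2000]⟩,
  ⟨331236824,397484188,825318250,666497570,192155847,18330834,718073562,672060400,[741,1000],
    [600],[1182,2000]⟩,
  ⟨397484188,476981025,794225562,606916275,230587016,26558809,672060400,620723237,[818,1000],
    [600],[1450,2000]⟩,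
  ⟨476981025,572377230,758455192,537442745,276704419,38885716,620723237,564272877,[905,1000],
    [600],[1785,2000]⟩,
  ⟨572377230,686852676,717648895,455064075,332045302,58504765,564272877,503273045,[1000],
    [600],[2000]⟩,
  ⟨686852676,824223211,671566178,362753856,398454363,86490392,503273045,438720968,[1000],
    [600],[2000]⟩,
  ⟨824223211,989067853,620152505,258041709,478145236,128187010,438720968,372100799,[1000],
    [600],[2000]⟩,
  ⟨989067853,1186881423,563620227,143338413,573774283,187454614,372100799,305381301,[1000],
    [600],[2000]⟩,
  ⟨1186881423,1424257707,502535946,10774746,688529139,281706126,305381301,240925351,[1000],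
    [600],[2000]⟩,
  ⟨1424257707,1680648638,482951975,53,728290424,322386443,240925351,186509901,[1000],
    [600],[2000]⟩]

theorem chkQ3 : chkAll 1024 none 100000000 140000000 datQ3 1680648638 = true := by
  decide +kernel

end Vale.Agent.P154.Uni
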