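import Vale.Agent.P154.Uni5

namespace Vale.Agent.P154.Uni

/-- certificate data -/
def datT1 : List Itv := [
  ⟨5000000,6000000,997106360,994509978,2956886,3684,995012492,994017982,[86,1000],
    [87,600],[14,2000]⟩,
  ⟨6000000,7200000,996528618,993414988,3548263,5302,994017982,992825884,[94,1000],
    [95,600],[17,2000]⟩,
  ⟨7200000,8640000,995835759,992104160,4257916,7611,992825884,991397254,[104,1000],
    [104,600],[21,2000]⟩,
  ⟨8640000,10368000,995004952,990531873,5109499,10939,991397254,989685615,[113,1000],
    [114,600],[25,2000]⟩,
  ⟨10368000,12441600,994008879,988649188,6131399,15701,989685615,987635552,[124,1000],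
    [125,600],[30,2000]⟩,
  ⟨12441600,14929920,992814882,986394784,7357678,22522,987635552,985181086,[136,1000],
    [137,600],[36,2000]⟩,
  ⟨14929920,17915904,991383939,983695830,8829214,32290,985181086,982243786,[149,1000],
    [150,600],[44,2000]⟩,
  ⟨17915904,21499084,989669474,980467292,10595057,46241,982243786,978730595,[163,1000],
    [165,600],[53,2000]⟩,
  ⟨21499084,25798900,987615950,976606842,12714068,66151,978730595,974531365,[179,1000],
    [181,600],[63,2000]⟩,
  ⟨25798900,30958680,985157231,971994484,15256881,94506,974531365,969516087,[196,1000],
    [198,600],[76,2000]⟩,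
  ⟨30958680,37150416,982214680,966488663,18308258,134787,969516087,963531844,[215,1000],
    [217,600],[91,2000]⟩,
  ⟨37150416,44580499,978694985,959922979,21969909,191867,963531844,956399536,[236,1000],
    [239,600],[110,2000]⟩,
  ⟨44580499,53496598,974487656,952103078,26363891,272475,956399536,947910491,[258,1000],
    [262,600],[132,2000]⟩,
  ⟨53496598,64195917,969462244,942803623,31636669,385824,947910491,937823134,[283,1000],
    [288,600],[158,2000]⟩,
  ⟨64195917,77035100,963465253,931764540,37964003,544409,937823134,925860039,[311,1000],
    [316,600],[189,2000]⟩,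
  ⟨77035100,92442120,956316820,918688717,45556803,764886,925860039,911705783,[341,1000],
    [347,600],[227,2000]⟩,
  ⟨92442120,110930544,947807259,903116958,54668164,1080433,911705783,895006288,[375,1000],
    [383,600],[273,2000]⟩,
  ⟨110930544,133116652,937693659,884615512,65601796,1532174,895006288,875370547,[412,1000],
    [422,600],[329,2000]⟩,
  ⟨133116652,159739982,925696818,862628671,78722155,2186952,875370547,852376010,[454,1000],
    [467,600],[398,2000]⟩,
  ⟨159739982,191687978,911498966,836608158,94466586,3131841,852376010,825579233,[502,1000],
    [517,600],[483,2000]⟩,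
  ⟨191687978,230025573,894742929,805948985,113359904,4489159,825579233,794533809,[555,1000],
    [575,600],[588,2000]⟩,
  ⟨230025573,276030687,875033662,770458218,136031884,6323922,794533809,758817871,[615,1000],
    [600],[714,2000]⟩,
  ⟨276030687,331236824,851943385,728539229,163238261,9061648,758817871,718073562,[685,1000],
    [600],[873,2000]⟩,
  ⟨331236824,397484188,825022006,679412333,195885913,13122176,718073562,672060400,[766,1000],
    [600],[1075,2000]⟩,
  ⟨397484188,476981025,793814849,623369192,235063095,18686988,672060400,620723237,[862,1000],
    [600],[1325,2000]⟩,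
  ⟨476981025,572377230,757890093,558753642,282075714,26819433,620723237,564272877,[978,1000],
    [600],[1645,2000]⟩,
  ⟨572377230,686852676,716878449,415135056,338490857,78654626,564272877,503273045,[1000],
    [600],[2000]⟩,
  ⟨686852676,824223211,670527236,343350091,406189028,95989085,503273045,438720968,[1000],
    [600],[2000]⟩,
  ⟨824223211,989067853,618769857,247128604,487426834,131796178,438720968,372100799,[1000],
    [600],[2000]⟩,
  ⟨989067853,1186881423,561809118,127103856,584912200,196000994,372100799,305381301,[1000],
    [600],[2000]⟩,
  ⟨1186881423,1424257707,500208412,55,701894640,284138704,305381301,240925351,[1000],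
    [600],[2000]⟩,
  ⟨1424257707,1555124290,494144311,54,714164552,337276940,240925351,211412386,[1000],
    [600],[2000]⟩]

theorem chkT1 : chkAll 50 none 0 60000000 datT1 1555124290 = true := by
  decide +kernel

end Vale.Agent.P154.Uni
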