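import Vale.Agent.P154.Uni5

namespace Vale.Agent.P154.Uni

/-- certificate data -/
def datT2 : List Itv := [
  ⟨5000000,6000000,997106360,994509978,2956886,3684,995012492,994017982,[86,1000],
    [87,600],[14,2000]⟩,
  ⟨6000000,7200000,996528618,993415054,3548263,5302,994017982,992825884,[94,1000],
    [95,600],[17,2000]⟩,
  ⟨7200000,8640000,995835759,992104160,4257916,7611,992825884,991397254,[103,1000],
    [104,600],[21,2000]⟩,
  ⟨8640000,10368000,995004952,990531873,5109499,10939,991397254,989685615,[113,1000],
    [114,600],[25,2000]⟩,
  ⟨10368000,12441600,994008879,988649188,6131399,15701,989685615,987635552,[123,1000],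
    [126,600],[30,2000]⟩,
  ⟨12441600,14929920,992814882,986394784,7357678,22522,987635552,985181086,[135,1000],
    [138,600],[36,2000]⟩,
  ⟨14929920,17915904,991383939,983695830,8829214,32290,985181086,982243786,[148,1000],
    [151,600],[44,2000]⟩,
  ⟨17915904,21499084,989669474,980467292,10595057,46241,982243786,978730595,[162,1000],
    [166,600],[53,2000]⟩,
  ⟨21499084,25798900,987615950,976606842,12714068,66151,978730595,974531365,[178,1000],
    [182,600],[63,2000]⟩,
  ⟨25798900,30958680,985157231,971994484,15256881,94506,974531365,969516087,[194,1000],
    [200,600],[76,2000]⟩,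
  ⟨30958680,37150416,982214680,966488660,18308258,134787,969516087,963531844,[213,1000],
    [219,600],[91,2000]⟩,
  ⟨37150416,44580499,978694985,959923005,21969909,191866,963531844,956399536,[233,1000],
    [241,600],[110,2000]⟩,
  ⟨44580499,53496598,974487656,952102992,26363891,272479,956399536,947910491,[255,1000],
    [265,600],[132,2000]⟩,
  ⟨53496598,64195917,969462244,942803623,31636669,385824,947910491,937823134,[279,1000],
    [291,600],[158,2000]⟩,
  ⟨64195917,77035100,963465253,931609480,37964003,554364,937823134,925860039,[307,1000],
    [321,600],[190,2000]⟩,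
  ⟨77035100,92442120,956316820,918267730,45556803,797317,925860039,911705783,[336,1000],
    [354,600],[230,2000]⟩,
  ⟨92442120,110930544,947807259,902635272,54668164,1124962,911705783,895006288,[369,1000],
    [391,600],[276,2000]⟩,
  ⟨110930544,133116652,937693659,883964225,65601796,1604422,895006288,875370547,[405,1000],
    [432,600],[333,2000]⟩,
  ⟨133116652,159739982,925696818,861348489,78722155,2357365,875370547,852376010,[446,1000],
    [480,600],[406,2000]⟩,
  ⟨159739982,191687978,911498966,835001539,94466586,3388483,852376010,825579233,[491,1000],
    [533,600],[493,2000]⟩,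
  ⟨191687978,230025573,894742929,803923138,113359904,4877490,825579233,794533809,[541,1000],
    [595,600],[599,2000]⟩,
  ⟨230025573,276030687,875033662,767434590,136031884,7019434,794533809,758817871,[598,1000],
    [600],[731,2000]⟩,
  ⟨276030687,331236824,851943385,724814684,163238261,10089737,758817871,718073562,[661,1000],
    [600],[893,2000]⟩,
  ⟨331236824,397484188,825022006,675319341,195885913,14477926,718073562,672060400,[734,1000],
    [600],[1096,2000]⟩,
  ⟨397484188,476981025,793814849,617658653,235063095,20956837,672060400,620723237,[816,1000],
    [600],[1351,2000]⟩,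
  ⟨476981025,572377230,757890093,551107393,282075714,30466549,620723237,564272877,[910,1000],
    [600],[1675,2000]⟩,
  ⟨572377230,686852676,716878449,437265056,338490857,65987918,564272877,503273045,[995,1000],
    [600],[2000]⟩,
  ⟨686852676,824223211,670527236,354690966,406189028,88199574,503273045,438720968,[1000],
    [600],[2000]⟩,
  ⟨824223211,989067853,618769857,252540350,487426834,127335692,438720968,372100799,[1000],
    [600],[2000]⟩,
  ⟨989067853,1186881423,561809118,135060683,584912200,188131152,372100799,305381301,[1000],
    [600],[2000]⟩,
  ⟨1186881423,1424257707,500208412,4229893,701894640,279118388,305381301,240925351,[1000],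
    [600],[2000]⟩,
  ⟨1424257707,1629460188,485924399,53,731034064,321620294,240925351,196289415,[1000],
    [600],[2000]⟩]

theorem chkT2 : chkAll 50 none 60000000 110000000 datT2 1629460188 = true := by
  decide +kernel

end Vale.Agent.P154.Uni
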