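import Vale.Agent.P154.Uni5

namespace Vale.Agent.P154.Uni

/-- certificate data -/
def datT3 : List Itv := [
  ⟨5000000,6000000,997010048,994420996,3055448,3367,995012492,994017982,[85,1000],
    [86,600],[14,2000]⟩,
  ⟨6000000,7200000,996528618,993414972,3548263,5302,994017982,992825884,[94,1000],
    [95,600],[17,2000]⟩,
  ⟨7200000,8640000,995835759,992104133,4257916,7611,992825884,991397254,[102,1000],
    [105,600],[21,2000]⟩,
  ⟨8640000,10368000,995004952,990531873,5109499,10939,991397254,989685615,[112,1000],
    [115,600],[25,2000]⟩,
  ⟨10368000,12441600,994008879,988649188,6131399,15701,989685615,987635552,[123,1000],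
    [126,600],[30,2000]⟩,
  ⟨12441600,14929920,992814882,986394800,7357678,22522,987635552,985181086,[134,1000],
    [138,600],[36,2000]⟩,
  ⟨14929920,17915904,991383939,983695817,8829214,32290,985181086,982243786,[147,1000],
    [152,600],[44,2000]⟩,
  ⟨17915904,21499084,989669474,980467376,10595057,46239,982243786,978730595,[161,1000],
    [167,600],[53,2000]⟩,
  ⟨21499084,25798900,987615950,976606911,12714068,66149,978730595,974531365,[176,1000],
    [183,600],[63,2000]⟩,
  ⟨25798900,30958680,985157231,971948993,15256881,95679,974531365,969516087,[193,1000],
    [201,600],[76,2000]⟩,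
  ⟨30958680,37150416,982214680,966488757,18308258,134784,969516087,963531844,[211,1000],
    [221,600],[91,2000]⟩,
  ⟨37150416,44580499,978694985,959841626,21969909,194889,963531844,956399536,[232,1000],
    [243,600],[110,2000]⟩,
  ⟨44580499,53496598,974487656,951887723,26363891,282076,956399536,947910491,[254,1000],
    [268,600],[133,2000]⟩,
  ⟨53496598,64195917,969462244,942541046,31636669,399871,947910491,937823134,[278,1000],
    [295,600],[159,2000]⟩,
  ⟨64195917,77035100,963465253,930940366,37964003,597318,937823134,925860039,[305,1000],
    [326,600],[194,2000]⟩,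
  ⟨77035100,92442120,956316820,917326710,45556803,869808,925860039,911705783,[335,1000],
    [360,600],[235,2000]⟩,
  ⟨92442120,110930544,947807259,901381942,54668164,1240822,911705783,895006288,[367,1000],
    [398,600],[283,2000]⟩,
  ⟨110930544,133116652,937693659,882739061,65601796,1740330,895006288,875370547,[402,1000],
    [441,600],[340,2000]⟩,
  ⟨133116652,159739982,925696818,860068071,78722155,2527810,875370547,852376010,[442,1000],
    [490,600],[413,2000]⟩,
  ⟨159739982,191687978,911498966,832638351,94466586,3765978,852376010,825579233,[487,1000],
    [545,600],[505,2000]⟩,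
  ⟨191687978,230025573,894742929,800739665,113359904,5487723,825579233,794533809,[536,1000],
    [600],[615,2000]⟩,
  ⟨230025573,276030687,875033662,762544972,136031884,8144171,794533809,758817871,[592,1000],
    [600],[753,2000]⟩,
  ⟨276030687,331236824,851943385,718432581,163238261,11851393,758817871,718073562,[652,1000],
    [600],[921,2000]⟩,
  ⟨331236824,397484188,825022006,666236377,195885913,17486538,718073562,672060400,[721,1000],
    [600],[1131,2000]⟩,
  ⟨397484188,476981025,793814849,606533605,235063095,25378868,672060400,620723237,[797,1000],
    [600],[1390,2000]⟩,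
  ⟨476981025,572377230,757890093,536895239,282075714,37245477,620723237,564272877,[883,1000],
    [600],[1716,2000]⟩,
  ⟨572377230,686852676,716878449,454304026,338490857,56235199,564272877,503273045,[979,1000],
    [600],[2000]⟩,
  ⟨686852676,824223211,670527236,361709187,406189028,83379090,503273045,438720968,[1000],
    [600],[2000]⟩,
  ⟨824223211,989067853,618769857,259074646,487426834,121949973,438720968,372100799,[1000],
    [600],[2000]⟩,
  ⟨989067853,1186881423,580200490,168699608,552417078,182424656,372100799,305381301,[1000],
    [600],[2000]⟩,
  ⟨1186881423,1424257707,519968309,40471743,662900493,271641496,305381301,240925351,[1000],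
    [600],[2000]⟩,
  ⟨1424257707,1683358237,480162761,53,743026001,310426633,240925351,186006044,[1000],
    [600],[2000]⟩]

theorem chkT3 : chkAll 50 none 110000000 141500000 datT3 1683358237 = true := by
  decide +kernel

end Vale.Agent.P154.Uni
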